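import Vale.Agent.Lib.P047.DegFourBound
import Vale.Agent.Lib.P047.Amplify

/-!
# P047, degree five: odd functions, neighbour sums and the level-one formula

For an odd Boolean function `g` of degree at most five on `n` bits,
`32 ∑_i x_i ĝ({i}) = ∑_{k,l} g(x^{kl}) - (2n - 16) ∑_k g(x^k) + (n - 6)(n - 10) g(x)`,
where `x^k` is `x` with coordinate `k` flipped.
-/

namespace Vale.Agent.Lib.P047

open Finset

set_option linter.unusedSectionVars false

variable {ι : Type*} [Fintype ι] [DecidableEq ι]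

/-- Odd functions: `g(-x) = -g(x)`. -/
def OddFn (g : (ι → ℤˣ) → ℤˣ) : Prop := ∀ x, g (-x) = -g x

theorem fourier_even_eq_zero (g : (ι → ℤˣ) → ℤˣ) (hg : OddFn g) (S : Finset ι)
    (hS : Even S.card) : fourier g S = 0 := by
  have h1 : ∑ x : ι → ℤˣ, ((g x : ℤ) : ℝ) * ∏ i ∈ S, ((x i : ℤ) : ℝ) =
      ∑ x : ι → ℤˣ, ((g (-x) : ℤ) : ℝ) * ∏ i ∈ S, (((-x) i : ℤ) : ℝ) :=
    (Fintype.sum_equiv (Equiv.neg (ι → ℤˣ)) _ _ (fun x => rfl)).symm
  have h2 : ∀ x : ι → ℤˣ, ((g (-x) : ℤ) : ℝ) * ∏ i ∈ S, (((-x) i : ℤ) : ℝ) =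
      -(((g x : ℤ) : ℝ) * ∏ i ∈ S, ((x i : ℤ) : ℝ)) := by
    intro x
    rw [hg x, chi_neg, hS.neg_one_pow]
    push_cast
    ring
  simp_rw [h2] at h1
  rw [Finset.sum_neg_distrib] at h1
  unfold fourier
  have h3 : ∑ x : ι → ℤˣ, ((g x : ℤ) : ℝ) * ∏ i ∈ S, ((x i : ℤ) : ℝ) = 0 := by linarith
  rw [h3, zero_div]

/-- The sum of `g` over the neighbours of `x`. -/
noncomputable def nbr1 (g : (ι → ℤˣ) → ℤˣ) (x : ι → ℤˣ) : ℝ :=
  ∑ k, ((g (flip k x) : ℤ) : ℝ)

/-- The sum of `g` over all double flips of `x` (ordered pairs, repetitions allowed). -/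
noncomputable def nbr2 (g : (ι → ℤˣ) → ℤˣ) (x : ι → ℤˣ) : ℝ :=
  ∑ k, ∑ l, ((g (flip l (flip k x)) : ℤ) : ℝ)

theorem sum_flip_sign (S : Finset ι) :
    ∑ k : ι, (if k ∈ S then (-1 : ℝ) else 1) = (Fintype.card ι : ℝ) - 2 * S.card := by
  have h : ∀ k : ι, (if k ∈ S then (-1 : ℝ) else 1) = 1 - (if k ∈ S then (2 : ℝ) else 0) := by
    intro k; split_ifs <;> norm_num
  simp_rw [h]
  rw [Finset.sum_sub_distrib, Finset.sum_ite_mem, Finset.univ_inter]
  simp
  ring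

theorem nbr1_expansion (g : (ι → ℤˣ) → ℤˣ) (x : ι → ℤˣ) :
    nbr1 g x = ∑ S : Finset ι, ((Fintype.card ι : ℝ) - 2 * S.card) *
      (fourier g S * ∏ j ∈ S, ((x j : ℤ) : ℝ)) := by
  unfold nbr1
  have h1 : ∀ k : ι, ((g (flip k x) : ℤ) : ℝ) = ∑ S : Finset ι,
      (if k ∈ S then (-1 : ℝ) else 1) * (fourier g S * ∏ j ∈ S, ((x j : ℤ) : ℝ)) := by
    intro k
    rw [fourier_inversion g (flip k x)]
    refine Finset.sum_congr rfl fun S _ => ?_
    rw [chi_flip]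
    ring
  simp_rw [h1]
  rw [Finset.sum_comm]
  refine Finset.sum_congr rfl fun S _ => ?_
  rw [← Finset.sum_mul, sum_flip_sign]

theorem nbr2_expansion (g : (ι → ℤˣ) → ℤˣ) (x : ι → ℤˣ) :
    nbr2 g x = ∑ S : Finset ι, ((Fintype.card ι : ℝ) - 2 * S.card) ^ 2 *
      (fourier g S * ∏ j ∈ S, ((x j : ℤ) : ℝ)) := by
  unfold nbr2
  have h1 : ∀ k l : ι, ((g (flip l (flip k x)) : ℤ) : ℝ) = ∑ S : Finset ι,
      (if l ∈ S then (-1 : ℝ) else 1) * ((if k ∈ S then (-1 : ℝ) else 1) *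
        (fourier g S * ∏ j ∈ S, ((x j : ℤ) : ℝ))) := by
    intro k l
    rw [fourier_inversion g (flip l (flip k x))]
    refine Finset.sum_congr rfl fun S _ => ?_
    rw [chi_flip, chi_flip]
    ring
  simp_rw [h1]
  have h2 : ∀ k : ι, ∑ l : ι, ∑ S : Finset ι,
      (if l ∈ S then (-1 : ℝ) else 1) * ((if k ∈ S then (-1 : ℝ) else 1) *
        (fourier g S * ∏ j ∈ S, ((x j : ℤ) : ℝ))) =
      ∑ S : Finset ι, ((Fintype.card ι : ℝ) - 2 * S.card) * ((if k ∈ S then (-1 : ℝ) else 1) *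
        (fourier g S * ∏ j ∈ S, ((x j : ℤ) : ℝ))) := by
    intro k
    rw [Finset.sum_comm]
    refine Finset.sum_congr rfl fun S _ => ?_
    rw [← Finset.sum_mul, sum_flip_sign]
  simp_rw [h2]
  rw [Finset.sum_comm]
  refine Finset.sum_congr rfl fun S _ => ?_
  have h3 : ∀ k : ι, ((Fintype.card ι : ℝ) - 2 * S.card) * ((if k ∈ S then (-1 : ℝ) else 1) *
        (fourier g S * ∏ j ∈ S, ((x j : ℤ) : ℝ))) =
      (if k ∈ S then (-1 : ℝ) else 1) * (((Fintype.card ι : ℝ) - 2 * S.card) *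
        (fourier g S * ∏ j ∈ S, ((x j : ℤ) : ℝ))) := fun k => by ring
  simp_rw [h3]
  rw [← Finset.sum_mul, sum_flip_sign]
  ring

theorem lin_expansion (g : (ι → ℤˣ) → ℤˣ) (x : ι → ℤˣ) :
    lin g x = ∑ S : Finset ι,
      (if S ∈ singles ι then fourier g S * ∏ j ∈ S, ((x j : ℤ) : ℝ) else 0) := by
  unfold lin
  rw [← sum_singles (fun S => fourier g S * ∏ j ∈ S, ((x j : ℤ) : ℝ))]
  refine Finset.sum_congr rfl fun i _ => ?_
  rw [Finset.prod_singleton]
  ring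

/-- The level-one formula at degree five, for odd functions. -/
theorem level_one_formula5 (g : (ι → ℤˣ) → ℤˣ) (hodd : OddFn g) (hd : degree g ≤ 5)
    (x : ι → ℤˣ) :
    32 * lin g x = nbr2 g x - (2 * (Fintype.card ι : ℝ) - 16) * nbr1 g x +
      ((Fintype.card ι : ℝ) - 6) * ((Fintype.card ι : ℝ) - 10) * ((g x : ℤ) : ℝ) := by
  rw [nbr2_expansion, nbr1_expansion, fourier_inversion g x, lin_expansion, Finset.mul_sum,
    Finset.mul_sum, Finset.mul_sum, ← Finset.sum_sub_distrib, ← Finset.sum_add_distrib]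
  refine Finset.sum_congr rfl fun S _ => ?_
  by_cases h0 : fourier g S = 0
  · rw [h0]; simp
  · have hc : S.card ≤ 5 := (card_le_degree g S h0).trans hd
    have hodd' : Odd S.card := by
      by_contra hne
      exact h0 (fourier_even_eq_zero g hodd S (Nat.not_odd_iff_even.mp hne))
    by_cases hS : S ∈ singles ι
    · rw [if_pos hS]
      obtain ⟨i, -, rfl⟩ := Finset.mem_image.mp hS
      rw [Finset.card_singleton]
      push_cast
      ring
    · rw [if_neg hS]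
      have hne : S.card ≠ 1 := by
        intro h1
        obtain ⟨i, rfl⟩ := Finset.card_eq_one.mp h1
        exact hS (Finset.mem_image.mpr ⟨i, Finset.mem_univ i, rfl⟩)
      have h35 : S.card = 3 ∨ S.card = 5 := by
        rcases hodd' with ⟨a, ha⟩
        omega
      rcases h35 with h | h <;> rw [h] <;> push_cast <;> ring

end Vale.Agent.Lib.P047
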