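import Vale.Agent.Lib.P047.D5.Base

/-!
# P047, degree five: identifying two variables

`ident g i j hij σ` is `g` with the variable `x_j` replaced by `σ x_i`; it is a Boolean function
on the cube indexed by `{k // k ≠ j}`.
-/

namespace Vale.Agent.Lib.P047

open Finset

set_option linter.unusedSectionVars false

variable {ι : Type*} [Fintype ι] [DecidableEq ι]

/-- The point of the big cube obtained from `y` by setting `x_j = σ y_i`. -/
def identPt (i j : ι) (hij : i ≠ j) (σ : ℤˣ) (y : {k : ι // k ≠ j} → ℤˣ) : ι → ℤˣ :=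
  fun k => if h : k = j then σ * y ⟨i, hij⟩ else y ⟨k, h⟩

/-- `g` with the variable `x_j` replaced by `σ x_i`. -/
def ident (g : (ι → ℤˣ) → ℤˣ) (i j : ι) (hij : i ≠ j) (σ : ℤˣ) :
    ({k : ι // k ≠ j} → ℤˣ) → ℤˣ :=
  fun y => g (identPt i j hij σ y)

theorem id_identPt_ne (i j : ι) (hij : i ≠ j) (σ : ℤˣ) (y : {k : ι // k ≠ j} → ℤˣ)
    (m : {k : ι // k ≠ j}) : identPt i j hij σ y m.1 = y m := by
  unfold identPt
  rw [dif_neg m.2]

theorem id_identPt_self (i j : ι) (hij : i ≠ j) (σ : ℤˣ) (y : {k : ι // k ≠ j} → ℤˣ) :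
    identPt i j hij σ y j = σ * y ⟨i, hij⟩ := by
  unfold identPt
  rw [dif_pos rfl]

theorem id_identPt_i (i j : ι) (hij : i ≠ j) (σ : ℤˣ) (y : {k : ι // k ≠ j} → ℤˣ) :
    identPt i j hij σ y i = y ⟨i, hij⟩ := by
  unfold identPt
  rw [dif_neg hij]

theorem ident_odd (g : (ι → ℤˣ) → ℤˣ) (hodd : OddFn g) (i j : ι) (hij : i ≠ j) (σ : ℤˣ) :
    OddFn (ident g i j hij σ) := by
  intro y
  have h : identPt i j hij σ (-y) = -(identPt i j hij σ y) := by
    funext k
    rw [Pi.neg_apply]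
    unfold identPt
    by_cases hk : k = j
    · rw [dif_pos hk, dif_pos hk, Pi.neg_apply, mul_neg]
    · rw [dif_neg hk, dif_neg hk, Pi.neg_apply]
  unfold ident
  rw [h]
  exact hodd _

/-- The big cube as the product of the small cube and a sign: the pair of `y` and `τ` goes to
the point with the coordinates of `y` outside `j` and the coordinate `τ y_i` at `j`. -/
def id_equiv (i j : ι) (hij : i ≠ j) : ({k : ι // k ≠ j} → ℤˣ) × ℤˣ ≃ (ι → ℤˣ) where
  toFun p := identPt i j hij p.2 p.1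
  invFun x := (fun k => x k.1, x j * x i)
  left_inv := by
    rintro ⟨y, τ⟩
    refine Prod.ext ?_ ?_
    · funext k
      exact id_identPt_ne i j hij τ y k
    · change identPt i j hij τ y j * identPt i j hij τ y i = τ
      rw [id_identPt_self, id_identPt_i, mul_assoc, Int.units_mul_self, mul_one]
  right_inv := by
    intro x
    funext k
    change identPt i j hij (x j * x i) (fun k => x k.1) k = x k
    by_cases hk : k = j
    · rw [hk, id_identPt_self]
      change x j * x i * x i = x j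
      rw [mul_assoc, Int.units_mul_self, mul_one]
    · exact id_identPt_ne i j hij _ _ ⟨k, hk⟩

/-- A sum over the big cube, split according to the sign `x_j x_i`. -/
theorem id_sum_split (i j : ι) (hij : i ≠ j) (F : (ι → ℤˣ) → ℝ) :
    ∑ x : ι → ℤˣ, F x = ∑ y : {k : ι // k ≠ j} → ℤˣ,
      (F (identPt i j hij 1 y) + F (identPt i j hij (-1) y)) := by
  rw [← Fintype.sum_equiv (id_equiv i j hij) (fun p => F (identPt i j hij p.2 p.1)) F
    (fun p => rfl), Fintype.sum_prod_type]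
  refine Finset.sum_congr rfl fun y _ => ?_
  rw [sum_units]

theorem id_card (i j : ι) (hij : i ≠ j) :
    (2 : ℝ) ^ Fintype.card ι = 2 * 2 ^ Fintype.card {k : ι // k ≠ j} := by
  have h := Fintype.card_congr (id_equiv i j hij)
  rw [Fintype.card_prod, Fintype.card_fun, Fintype.card_fun, Fintype.card_units_int] at h
  have h' : (2 : ℝ) ^ Fintype.card {k : ι // k ≠ j} * 2 = 2 ^ Fintype.card ι := by
    exact_mod_cast h
  rw [← h']
  ring

/-- The character of a symmetric difference is the product of the characters. -/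
theorem id_chi_symmDiff (x : ι → ℤˣ) (A B : Finset ι) :
    ∏ k ∈ symmDiff A B, ((x k : ℤ) : ℝ) =
      (∏ k ∈ A, ((x k : ℤ) : ℝ)) * ∏ k ∈ B, ((x k : ℤ) : ℝ) := by
  have h : ∀ S : Finset ι, ∏ k ∈ S, ((x k : ℤ) : ℝ)
      = ∏ k, (if k ∈ S then ((x k : ℤ) : ℝ) else 1) := by
    intro S
    rw [Finset.prod_ite_mem, Finset.univ_inter]
  rw [h (symmDiff A B), h A, h B, ← Finset.prod_mul_distrib]
  refine Finset.prod_congr rfl fun k _ => ?_
  by_cases hA : k ∈ A <;> by_cases hB : k ∈ B <;>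
    simp [Finset.mem_symmDiff, hA, hB, unit_cast_mul_self]

/-- The character of a set avoiding `j`, at an identified point. -/
theorem id_chi_map (i j : ι) (hij : i ≠ j) (τ : ℤˣ) (y : {k : ι // k ≠ j} → ℤˣ)
    (R : Finset {k : ι // k ≠ j}) :
    ∏ k ∈ R.map (Function.Embedding.subtype _), ((identPt i j hij τ y k : ℤ) : ℝ)
      = ∏ m ∈ R, ((y m : ℤ) : ℝ) := by
  rw [Finset.prod_map]
  refine Finset.prod_congr rfl fun m _ => ?_
  exact congrArg (fun u : ℤˣ => ((u : ℤ) : ℝ)) (id_identPt_ne i j hij τ y m)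

/-- The character of the set `R' ∆ {i, j}` at an identified point. -/
theorem id_chi_symm (i j : ι) (hij : i ≠ j) (τ : ℤˣ) (y : {k : ι // k ≠ j} → ℤˣ)
    (R : Finset {k : ι // k ≠ j}) :
    ∏ k ∈ symmDiff (R.map (Function.Embedding.subtype _)) {i, j},
        ((identPt i j hij τ y k : ℤ) : ℝ)
      = ((τ : ℤ) : ℝ) * ∏ m ∈ R, ((y m : ℤ) : ℝ) := by
  rw [id_chi_symmDiff, id_chi_map, Finset.prod_pair hij, id_identPt_self, id_identPt_i]
  have h := unit_cast_mul_self (y ⟨i, hij⟩)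
  push_cast
  linear_combination (((τ : ℤ) : ℝ) * ∏ m ∈ R, ((y m : ℤ) : ℝ)) * h

/-- The Fourier coefficients of the identified function. -/
theorem fourier_ident (g : (ι → ℤˣ) → ℤˣ) (i j : ι) (hij : i ≠ j) (σ : ℤˣ)
    (R : Finset {k : ι // k ≠ j}) :
    fourier (ident g i j hij σ) R =
      fourier g (R.map (Function.Embedding.subtype _)) +
        ((σ : ℤ) : ℝ) * fourier g (symmDiff (R.map (Function.Embedding.subtype _)) {i, j}) := by
  have hS1 : ∑ x : ι → ℤˣ, ((g x : ℤ) : ℝ) *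
        ∏ k ∈ R.map (Function.Embedding.subtype _), ((x k : ℤ) : ℝ)
      = ∑ y : {k : ι // k ≠ j} → ℤˣ, ((ident g i j hij 1 y : ℤ) : ℝ) * ∏ m ∈ R, ((y m : ℤ) : ℝ)
        + ∑ y : {k : ι // k ≠ j} → ℤˣ,
            ((ident g i j hij (-1) y : ℤ) : ℝ) * ∏ m ∈ R, ((y m : ℤ) : ℝ) := by
    rw [id_sum_split i j hij, ← Finset.sum_add_distrib]
    refine Finset.sum_congr rfl fun y _ => ?_
    rw [id_chi_map, id_chi_map]
    rfl
  have hS2 : ∑ x : ι → ℤˣ, ((g x : ℤ) : ℝ) *
        ∏ k ∈ symmDiff (R.map (Function.Embedding.subtype _)) {i, j}, ((x k : ℤ) : ℝ)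
      = ∑ y : {k : ι // k ≠ j} → ℤˣ, ((ident g i j hij 1 y : ℤ) : ℝ) * ∏ m ∈ R, ((y m : ℤ) : ℝ)
        - ∑ y : {k : ι // k ≠ j} → ℤˣ,
            ((ident g i j hij (-1) y : ℤ) : ℝ) * ∏ m ∈ R, ((y m : ℤ) : ℝ) := by
    rw [id_sum_split i j hij, ← Finset.sum_sub_distrib]
    refine Finset.sum_congr rfl fun y _ => ?_
    rw [id_chi_symm, id_chi_symm]
    unfold ident
    push_cast
    ring
  have h2n : (2 : ℝ) ^ Fintype.card {k : ι // k ≠ j} ≠ 0 := by positivity
  unfold fourier
  rw [hS1, hS2, id_card i j hij]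
  rcases Int.units_eq_one_or σ with rfl | rfl
  · generalize (∑ y : {k : ι // k ≠ j} → ℤˣ,
      ((ident g i j hij 1 y : ℤ) : ℝ) * ∏ m ∈ R, ((y m : ℤ) : ℝ)) = P
    generalize (∑ y : {k : ι // k ≠ j} → ℤˣ,
      ((ident g i j hij (-1) y : ℤ) : ℝ) * ∏ m ∈ R, ((y m : ℤ) : ℝ)) = Q
    push_cast
    field_simp
    ring
  · generalize (∑ y : {k : ι // k ≠ j} → ℤˣ,
      ((ident g i j hij 1 y : ℤ) : ℝ) * ∏ m ∈ R, ((y m : ℤ) : ℝ)) = P
    generalize (∑ y : {k : ι // k ≠ j} → ℤˣ,
      ((ident g i j hij (-1) y : ℤ) : ℝ) * ∏ m ∈ R, ((y m : ℤ) : ℝ)) = Q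
    push_cast
    field_simp
    ring

theorem degree_ident_le (g : (ι → ℤˣ) → ℤˣ) (i j : ι) (hij : i ≠ j) (σ : ℤˣ) :
    degree (ident g i j hij σ) ≤ degree g := by
  refine degree_le_of _ _ ?_
  intro R hR
  rw [fourier_ident] at hR
  obtain ⟨R', hR'⟩ : ∃ R' : Finset ι, R' = R.map (Function.Embedding.subtype _) := ⟨_, rfl⟩
  rw [← hR'] at hR
  have hcard : R'.card = R.card := by rw [hR', Finset.card_map]
  have hj : j ∉ R' := by
    rw [hR', Finset.mem_map]
    rintro ⟨m, -, hm⟩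
    exact m.2 hm
  by_cases h1 : fourier g R' = 0
  · have h2 : fourier g (symmDiff R' {i, j}) ≠ 0 := by
      intro h2
      rw [h1, h2] at hR
      simp at hR
    have hsub : insert j (R'.erase i) ⊆ symmDiff R' {i, j} := by
      intro k hk
      rw [Finset.mem_insert] at hk
      rw [Finset.mem_symmDiff]
      rcases hk with hk | hk
      · right
        rw [hk]
        exact ⟨by simp, hj⟩
      · left
        rw [Finset.mem_erase] at hk
        refine ⟨hk.2, ?_⟩
        rw [Finset.mem_insert, Finset.mem_singleton]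
        rintro (h | h)
        · exact hk.1 h
        · apply hj
          rw [← h]
          exact hk.2
    have hjn : j ∉ R'.erase i := fun h => hj (Finset.mem_of_mem_erase h)
    have hc1 : (insert j (R'.erase i)).card = (R'.erase i).card + 1 :=
      Finset.card_insert_of_notMem hjn
    have hc2 : R'.card - 1 ≤ (R'.erase i).card := Finset.pred_card_le_card_erase
    have hc3 := Finset.card_le_card hsub
    have hc4 := card_le_degree g _ h2
    omega
  · have hc := card_le_degree g R' h1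
    omega

theorem id_symmDiff_i (i j : ι) (hij : i ≠ j) : symmDiff ({i} : Finset ι) {i, j} = {j} := by
  ext k
  simp only [Finset.mem_symmDiff, Finset.mem_singleton, Finset.mem_insert]
  constructor
  · rintro (⟨h1, h2⟩ | ⟨h1, h2⟩)
    · exact absurd (Or.inl h1) h2
    · rcases h1 with h1 | h1
      · exact absurd h1 h2
      · exact h1
  · intro h
    right
    refine ⟨Or.inr h, ?_⟩
    rw [h]
    exact fun h' => hij h'.symm

theorem id_symmDiff_k (i j k : ι) (hki : k ≠ i) (hkj : k ≠ j) :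
    symmDiff ({k} : Finset ι) {i, j} = {i, j, k} := by
  ext l
  simp only [Finset.mem_symmDiff, Finset.mem_singleton, Finset.mem_insert]
  constructor
  · rintro (⟨h1, -⟩ | ⟨h1, -⟩)
    · exact Or.inr (Or.inr h1)
    · rcases h1 with h1 | h1
      · exact Or.inl h1
      · exact Or.inr (Or.inl h1)
  · rintro (h | h | h)
    · right
      refine ⟨Or.inl h, ?_⟩
      rw [h]
      exact fun h' => hki h'.symm
    · right
      refine ⟨Or.inr h, ?_⟩
      rw [h]
      exact fun h' => hkj h'.symm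
    · left
      refine ⟨h, ?_⟩
      rw [h]
      rintro (h' | h')
      · exact hki h'
      · exact hkj h'

theorem id_sign_mul_le (u : ℤˣ) (c : ℝ) : ((u : ℤ) : ℝ) * c ≤ |c| := by
  rcases Int.units_eq_one_or u with h | h
  · rw [h]
    push_cast
    rw [one_mul]
    exact le_abs_self c
  · rw [h]
    push_cast
    rw [neg_one_mul]
    exact neg_le_abs c

/-- A lower bound for the level-one sum of the identified function. -/
theorem ident_level_one (g : (ι → ℤˣ) → ℤˣ) (i j : ι) (hij : i ≠ j) (σ : ℤˣ) (s : ι → ℤˣ) :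
    ∑ l ∈ univ.erase j, ((s l : ℤ) : ℝ) * fourier g {l} +
        ((σ : ℤ) : ℝ) * (((s i : ℤ) : ℝ) * fourier g {j}) +
        ((σ : ℤ) : ℝ) * ∑ k ∈ (univ.erase i).erase j, ((s k : ℤ) : ℝ) * fourier g {i, j, k} ≤
      ∑ m, |fourier (ident g i j hij σ) {m}| := by
  have hc : ∀ m : {k : ι // k ≠ j}, fourier (ident g i j hij σ) {m}
      = fourier g {m.1} + ((σ : ℤ) : ℝ) * fourier g (symmDiff {m.1} {i, j}) := by
    intro m
    rw [fourier_ident, Finset.map_singleton]
    rfl
  have hle : ∀ m : {k : ι // k ≠ j},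
      ((s m.1 : ℤ) : ℝ) *
          (fourier g {m.1} + ((σ : ℤ) : ℝ) * fourier g (symmDiff {m.1} {i, j}))
        ≤ |fourier (ident g i j hij σ) {m}| := by
    intro m
    rw [hc m]
    exact id_sign_mul_le _ _
  have hsub : ∑ m : {k : ι // k ≠ j}, ((s m.1 : ℤ) : ℝ) *
        (fourier g {m.1} + ((σ : ℤ) : ℝ) * fourier g (symmDiff {m.1} {i, j}))
      = ∑ l ∈ univ.erase j, ((s l : ℤ) : ℝ) *
          (fourier g {l} + ((σ : ℤ) : ℝ) * fourier g (symmDiff {l} {i, j})) :=
    (Finset.sum_subtype (univ.erase j) (fun x => by simp)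
      (fun l => ((s l : ℤ) : ℝ) *
        (fourier g {l} + ((σ : ℤ) : ℝ) * fourier g (symmDiff {l} {i, j})))).symm
  refine le_trans (le_of_eq ?_) (Finset.sum_le_sum (fun m _ => hle m))
  rw [hsub]
  have hi : i ∈ univ.erase j := Finset.mem_erase.mpr ⟨hij, Finset.mem_univ i⟩
  have h2 : ∑ l ∈ univ.erase j, ((s l : ℤ) : ℝ) * fourier g (symmDiff {l} {i, j})
      = ((s i : ℤ) : ℝ) * fourier g {j}
        + ∑ k ∈ (univ.erase i).erase j, ((s k : ℤ) : ℝ) * fourier g {i, j, k} := by
    rw [← Finset.add_sum_erase (univ.erase j) _ hi, id_symmDiff_i i j hij,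
      Finset.erase_right_comm]
    congr 1
    refine Finset.sum_congr rfl fun k hk => ?_
    rw [Finset.mem_erase, Finset.mem_erase] at hk
    rw [id_symmDiff_k i j k hk.2.1 hk.1]
  have h3 : ∑ l ∈ univ.erase j, ((s l : ℤ) : ℝ) *
        (fourier g {l} + ((σ : ℤ) : ℝ) * fourier g (symmDiff {l} {i, j}))
      = ∑ l ∈ univ.erase j, ((s l : ℤ) : ℝ) * fourier g {l}
        + ((σ : ℤ) : ℝ) * ∑ l ∈ univ.erase j, ((s l : ℤ) : ℝ) *
            fourier g (symmDiff {l} {i, j}) := by
    rw [Finset.mul_sum, ← Finset.sum_add_distrib]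
    refine Finset.sum_congr rfl fun l _ => ?_
    ring
  rw [h3, h2]
  ring

end Vale.Agent.Lib.P047
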