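import Vale.Agent.Lib.P047.D5.Base
import Vale.Agent.Lib.P047.Granular

/-!
# P047, degree five: reduction to odd functions, integrality of the coefficients
-/

namespace Vale.Agent.Lib.P047

open Finset

set_option linter.unusedSectionVars false

variable {ι : Type*} [Fintype ι] [DecidableEq ι]

theorem twist_odd (f : (ι → ℤˣ) → ℤˣ) (s : ι → ℤˣ) (t : ℤˣ) : OddFn (twist f s t) := by
  intro z
  unfold twist
  have h1 : (fun i => s i * (t * (-z) none) * (-z) (some i)) =
      (fun i => s i * (t * z none) * z (some i)) := by
    funext i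
    simp
  rw [h1]
  simp

/-- Every Boolean function `f` has an odd companion `g` in one more variable with level-one
sum `∑_i |f̂({i})| + |f̂(∅)|` and degree at most `deg f` rounded up to an odd number. -/
theorem exists_odd_twist (f : (ι → ℤˣ) → ℤˣ) :
    ∃ g : (Option ι → ℤˣ) → ℤˣ, OddFn g ∧
      ∑ a, fourier g {a} = ∑ i, |fourier f {i}| + |fourier f ∅| ∧
      degree g ≤ (if Odd (degree f) then degree f else degree f + 1) := by
  refine ⟨twist f (fun i => if 0 ≤ fourier f {i} then 1 else -1)
    (if 0 ≤ fourier f ∅ then 1 else -1), twist_odd _ _ _, ?_, ?_⟩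
  · rw [Fintype.sum_option, add_comm]
    congr 1
    · refine Finset.sum_congr rfl fun i _ => ?_
      rw [fourier_twist, Finset.card_singleton, if_pos odd_one, eraseNone_singleton_some,
        Finset.card_singleton, Finset.prod_singleton]
      have h1 : ((((if 0 ≤ fourier f ∅ then (1 : ℤˣ) else -1 : ℤˣ) : ℤ) : ℝ)) ^ (1 + 1) = 1 := by
        rw [show (1 : ℕ) + 1 = 2 from rfl]; exact unit_cast_sq _
      rw [h1, one_mul]
      exact sign_mul_eq_abs _
    · rw [fourier_twist, Finset.card_singleton, if_pos odd_one, eraseNone_singleton_none,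
        Finset.card_empty, Finset.prod_empty, mul_one, add_zero, pow_one]
      exact sign_mul_eq_abs _
  · apply degree_le_of
    intro T hT
    rw [fourier_twist] at hT
    have hodd : Odd T.card := by
      by_contra hno
      rw [if_neg hno] at hT
      exact hT rfl
    rw [if_pos hodd] at hT
    have hf : fourier f T.eraseNone ≠ 0 := right_ne_zero_of_mul hT
    have hle := card_le_degree f _ hf
    by_cases hn : none ∈ T
    · have hc := Finset.card_eraseNone_of_mem hn
      have hpos : 0 < T.card := Finset.card_pos.mpr ⟨none, hn⟩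
      split_ifs with hd
      · have hne : T.eraseNone.card ≠ degree f := by
          intro heq
          have : Odd (T.card - 1) := by rw [← hc, heq]; exact hd
          rcases hodd with ⟨a, ha⟩
          rcases this with ⟨b, hb⟩
          omega
        omega
      · omega
    · have hc := Finset.card_eraseNone_of_not_mem hn
      split_ifs with hd <;> omega

/-- Reduction of a level-one bound at degree five to odd functions. -/
theorem level_one_le_of_odd (c : ℝ) (f : (ι → ℤˣ) → ℤˣ) (hd : degree f ≤ 5)
    (h : ∀ g : (Option ι → ℤˣ) → ℤˣ, OddFn g → degree g ≤ 5 → ∑ a, |fourier g {a}| ≤ c) :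
    ∑ i, |fourier f {i}| ≤ c := by
  obtain ⟨g, hodd, hsum, hdeg⟩ := exists_odd_twist f
  have hg5 : degree g ≤ 5 := by
    refine hdeg.trans ?_
    split_ifs with ho
    · exact hd
    · have : degree f ≠ 5 := fun h5 => ho (h5 ▸ (by decide))
      omega
  have h1 := h g hodd hg5
  have h2 : ∑ a, fourier g {a} ≤ ∑ a, |fourier g {a}| :=
    Finset.sum_le_sum fun a _ => le_abs_self _
  have h3 : 0 ≤ |fourier f ∅| := abs_nonneg _
  linarith

/-- At degree at most five, sixteen times a Fourier coefficient at a nonempty set is an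
integer. -/
theorem fourier_int16 (g : (ι → ℤˣ) → ℤˣ) (hd : degree g ≤ 5) (S : Finset ι) (hS : S.Nonempty) :
    ∃ k : ℤ, 16 * fourier g S = (k : ℝ) := by
  obtain ⟨k, hk⟩ := AddSubgroup.mem_zmultiples_iff.mp (fourier_mem_zmultiples g 5 (by norm_num) hd S hS)
  refine ⟨k, ?_⟩
  rw [← hk, zsmul_eq_mul]
  norm_num
  ring

end Vale.Agent.Lib.P047
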