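import Vale.Agent.Lib.P047.D5.Pair
import Vale.Agent.Lib.P047.D5.Ident
import Vale.Agent.Lib.P047.D5.Reduce
import Vale.Agent.Lib.P047.Five.Book

/-!
# P047, degree five: every Boolean function of degree at most five has level-one sum at most 17/8

A minimal counterexample (an odd function with `16 ∑_i |ĝ({i})| ≥ 35` on the fewest variables)
gives a good set function in the sense of `Five.Good`, which does not exist.
-/

namespace Vale.Agent.Lib.P047

open Finset
open scoped symmDiff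

set_option linter.unusedSectionVars false

universe u

variable {ι : Type u} [Fintype ι] [DecidableEq ι]

/-- The point `s` with the coordinates in `R` flipped. -/
def ptOf (s : ι → ℤˣ) (R : Finset ι) : ι → ℤˣ := fun k => if k ∈ R then -s k else s k

theorem ptOf_empty (s : ι → ℤˣ) : ptOf s ∅ = s := by
  funext k
  simp [ptOf]

theorem flip_ptOf (s : ι → ℤˣ) (R : Finset ι) (k : ι) :
    flip k (ptOf s R) = ptOf s (R ∆ {k}) := by
  funext l
  unfold flip ptOf
  by_cases hl : l = k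
  · subst hl
    by_cases hR : l ∈ R
    · simp [Finset.mem_symmDiff, hR]
    · simp [Finset.mem_symmDiff, hR]
  · have h1 : l ∈ R ∆ {k} ↔ l ∈ R := by simp [Finset.mem_symmDiff, hl]
    rw [if_neg hl]
    by_cases hR : l ∈ R
    · rw [if_pos hR, if_pos (h1.mpr hR)]
    · rw [if_neg hR, if_neg (fun h => hR (h1.mp h))]

/-- The set function of `g` around the sign vector of its level-one coefficients. -/
noncomputable def Gof (g : (ι → ℤˣ) → ℤˣ) (R : Finset ι) : ℤ :=
  ((g (ptOf (sgnVec g) R) : ℤˣ) : ℤ)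

/-- `t l = 16 |ĝ({l})|` as an integer. -/
noncomputable def tOf (g : (ι → ℤˣ) → ℤˣ) (l : ι) : ℤ := ⌊16 * |fourier g {l}|⌋

theorem tOf_cast (g : (ι → ℤˣ) → ℤˣ) (hd : degree g ≤ 5) (l : ι) :
    ((tOf g l : ℤ) : ℝ) = 16 * |fourier g {l}| := by
  obtain ⟨k, hk⟩ := fourier_int16 g hd {l} (Finset.singleton_nonempty l)
  unfold tOf
  have h1 : 16 * |fourier g {l}| = ((|k| : ℤ) : ℝ) := by
    rw [Int.cast_abs, ← hk, abs_mul]
    norm_num
  rw [h1, Int.floor_intCast]

theorem Gof_cast_nb (g : (ι → ℤˣ) → ℤˣ) (R : Finset ι) :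
    ((Five.nb (Gof g) R : ℤ) : ℝ) = nbr1 g (ptOf (sgnVec g) R) := by
  unfold Five.nb nbr1 Gof
  push_cast
  refine Finset.sum_congr rfl fun k _ => ?_
  rw [flip_ptOf]

theorem Gof_cast_nb2 (g : (ι → ℤˣ) → ℤˣ) (R : Finset ι) :
    ((Five.nb (Five.nb (Gof g)) R : ℤ) : ℝ) = nbr2 g (ptOf (sgnVec g) R) := by
  unfold Five.nb nbr2 Gof
  push_cast
  refine Finset.sum_congr rfl fun k _ => Finset.sum_congr rfl fun l _ => ?_
  rw [flip_ptOf, flip_ptOf]

theorem Gof_cast_dd2 (g : (ι → ℤˣ) → ℤˣ) (i j : ι) (R : Finset ι) :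
    ((Five.dd2 (Gof g) i j R : ℤ) : ℝ) = dpair g i j (ptOf (sgnVec g) R) := by
  unfold Five.dd2 dpair Gof
  push_cast
  simp only [flip_ptOf]

theorem lin_ptOf (g : (ι → ℤˣ) → ℤˣ) (R : Finset ι) :
    lin g (ptOf (sgnVec g) R) =
      ∑ l, (if l ∈ R then -|fourier g {l}| else |fourier g {l}|) := by
  unfold lin ptOf
  refine Finset.sum_congr rfl fun l _ => ?_
  split_ifs with h
  · rw [← sgnVec_mul g l]
    push_cast
    ring
  · exact sgnVec_mul g l

theorem Gof_pm (g : (ι → ℤˣ) → ℤˣ) (R : Finset ι) : Gof g R = 1 ∨ Gof g R = -1 := by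
  unfold Gof
  rcases Int.units_eq_one_or (g (ptOf (sgnVec g) R)) with h | h <;> simp [h]

theorem Gof_lvl (g : (ι → ℤˣ) → ℤˣ) (hodd : OddFn g) (hd : degree g ≤ 5) (R : Finset ι) :
    ((Fintype.card ι : ℤ) - 6) * ((Fintype.card ι : ℤ) - 10) * Gof g R
      - 2 * ((Fintype.card ι : ℤ) - 8) * Five.nb (Gof g) R + Five.nb (Five.nb (Gof g)) R
      = 2 * ∑ l, (if l ∈ R then -tOf g l else tOf g l) := by
  have h := level_one_formula5 g hodd hd (ptOf (sgnVec g) R)
  rw [lin_ptOf, ← Gof_cast_nb2, ← Gof_cast_nb] at h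
  have hsum : ((∑ l, (if l ∈ R then -tOf g l else tOf g l) : ℤ) : ℝ) =
      16 * ∑ l, (if l ∈ R then -|fourier g {l}| else |fourier g {l}|) := by
    push_cast
    rw [Finset.mul_sum]
    refine Finset.sum_congr rfl fun l _ => ?_
    split_ifs
    · push_cast; rw [tOf_cast g hd l]; ring
    · rw [tOf_cast g hd l]
  have hG : ((Gof g R : ℤ) : ℝ) = ((g (ptOf (sgnVec g) R) : ℤ) : ℝ) := rfl
  have key : ((((Fintype.card ι : ℤ) - 6) * ((Fintype.card ι : ℤ) - 10) * Gof g R
      - 2 * ((Fintype.card ι : ℤ) - 8) * Five.nb (Gof g) R + Five.nb (Five.nb (Gof g)) R : ℤ) : ℝ)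
      = ((2 * ∑ l, (if l ∈ R then -tOf g l else tOf g l) : ℤ) : ℝ) := by
    rw [Int.cast_mul 2, hsum]
    push_cast
    rw [hG]
    linarith
  exact_mod_cast key

theorem Gof_W (g : (ι → ℤˣ) → ℤˣ) (hodd : OddFn g) (hd : degree g ≤ 5) (i j : ι)
    (hij : i ≠ j) :
    ((Five.W (Gof g) i j : ℤ) : ℝ) =
      16 * ∑ k ∈ (univ.erase i).erase j, fourier g {i, j, k} *
        (((sgnVec g i : ℤ) : ℝ) * ((sgnVec g j : ℤ) : ℝ) * ((sgnVec g k : ℤ) : ℝ)) := by
  have h := pair_formula5 g hodd hd i j hij (sgnVec g)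
  rw [h]
  unfold Five.W Five.nb
  push_cast
  rw [Gof_cast_dd2, ptOf_empty]
  congr 1
  refine Finset.sum_congr rfl fun k _ => ?_
  rw [Gof_cast_dd2, ← flip_ptOf, ptOf_empty]

theorem sum_tOf (g : (ι → ℤˣ) → ℤˣ) (hd : degree g ≤ 5) :
    ((∑ l, tOf g l : ℤ) : ℝ) = 16 * ∑ l, |fourier g {l}| := by
  push_cast
  rw [Finset.mul_sum]
  exact Finset.sum_congr rfl fun l _ => tOf_cast g hd l

/-- The merging inequalities from a bound for the identified functions. -/
theorem Gof_merge (g : (ι → ℤˣ) → ℤˣ) (hodd : OddFn g) (hd : degree g ≤ 5) (i j : ι)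
    (hij : i ≠ j)
    (hsmall : ∀ σ : ℤˣ, 16 * ∑ m, |fourier (ident g i j hij σ) {m}| ≤ 34) :
    (∑ l, tOf g l) + Five.W (Gof g) i j ≤ 34 ∧
      (∑ l, tOf g l) - 2 * tOf g j - Five.W (Gof g) i j ≤ 34 := by
  have hW := Gof_W g hodd hd i j hij
  have hS := sum_tOf g hd
  have htj := tOf_cast g hd j
  have hsplit : ∑ l, |fourier g {l}| = ∑ l ∈ univ.erase j, |fourier g {l}| + |fourier g {j}| := by
    rw [Finset.sum_erase_add _ _ (Finset.mem_univ j)]
  have habs : ∀ l : ι, ((sgnVec g l : ℤ) : ℝ) * fourier g {l} = |fourier g {l}| := sgnVec_mul g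
  have hsq : ∀ l : ι, ((sgnVec g l : ℤ) : ℝ) * ((sgnVec g l : ℤ) : ℝ) = 1 :=
    fun l => unit_cast_mul_self _
  constructor
  · have h1 := ident_level_one g i j hij (sgnVec g i * sgnVec g j) (sgnVec g)
    have h2 := hsmall (sgnVec g i * sgnVec g j)
    have e1 : ∑ l ∈ univ.erase j, ((sgnVec g l : ℤ) : ℝ) * fourier g {l} =
        ∑ l ∈ univ.erase j, |fourier g {l}| :=
      Finset.sum_congr rfl fun l _ => habs l
    have e2 : (((sgnVec g i * sgnVec g j : ℤˣ) : ℤ) : ℝ) *
        (((sgnVec g i : ℤ) : ℝ) * fourier g {j}) = |fourier g {j}| := by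
      rw [← habs j]
      push_cast
      linear_combination (((sgnVec g j : ℤ) : ℝ) * fourier g {j}) * hsq i
    have e3 : (((sgnVec g i * sgnVec g j : ℤˣ) : ℤ) : ℝ) *
        ∑ k ∈ (univ.erase i).erase j, ((sgnVec g k : ℤ) : ℝ) * fourier g {i, j, k} =
        ∑ k ∈ (univ.erase i).erase j, fourier g {i, j, k} *
        (((sgnVec g i : ℤ) : ℝ) * ((sgnVec g j : ℤ) : ℝ) * ((sgnVec g k : ℤ) : ℝ)) := by
      rw [Finset.mul_sum]
      refine Finset.sum_congr rfl fun k _ => ?_
      push_cast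
      ring
    rw [e1, e2, e3] at h1
    have key : ((((∑ l, tOf g l) + Five.W (Gof g) i j : ℤ)) : ℝ) ≤ ((34 : ℤ) : ℝ) := by
      rw [Int.cast_add, hS, hW, hsplit]
      push_cast
      linarith
    exact_mod_cast key
  · have h1 := ident_level_one g i j hij (-(sgnVec g i * sgnVec g j)) (sgnVec g)
    have h2 := hsmall (-(sgnVec g i * sgnVec g j))
    have e1 : ∑ l ∈ univ.erase j, ((sgnVec g l : ℤ) : ℝ) * fourier g {l} =
        ∑ l ∈ univ.erase j, |fourier g {l}| :=
      Finset.sum_congr rfl fun l _ => habs l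
    have e2 : (((-(sgnVec g i * sgnVec g j) : ℤˣ) : ℤ) : ℝ) *
        (((sgnVec g i : ℤ) : ℝ) * fourier g {j}) = -|fourier g {j}| := by
      rw [← habs j]
      push_cast
      linear_combination (-(((sgnVec g j : ℤ) : ℝ) * fourier g {j})) * hsq i
    have e3 : (((-(sgnVec g i * sgnVec g j) : ℤˣ) : ℤ) : ℝ) *
        ∑ k ∈ (univ.erase i).erase j, ((sgnVec g k : ℤ) : ℝ) * fourier g {i, j, k} =
        -∑ k ∈ (univ.erase i).erase j, fourier g {i, j, k} *
        (((sgnVec g i : ℤ) : ℝ) * ((sgnVec g j : ℤ) : ℝ) * ((sgnVec g k : ℤ) : ℝ)) := by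
      rw [Finset.mul_sum, ← Finset.sum_neg_distrib]
      refine Finset.sum_congr rfl fun k _ => ?_
      push_cast
      ring
    rw [e1, e2, e3] at h1
    have key : ((((∑ l, tOf g l) - 2 * tOf g j - Five.W (Gof g) i j : ℤ)) : ℝ) ≤
        ((34 : ℤ) : ℝ) := by
      rw [Int.cast_sub, Int.cast_sub, hS, hW, hsplit]
      push_cast
      rw [htj]
      linarith
    exact_mod_cast key

/-- Odd Boolean functions of degree at most five: `16 ∑_i |ĝ({i})| ≤ 34`. -/
theorem odd_level_one_le_aux (n : ℕ) : ∀ (ι : Type u) [Fintype ι] [DecidableEq ι],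
    Fintype.card ι = n → ∀ g : (ι → ℤˣ) → ℤˣ, OddFn g → degree g ≤ 5 →
      16 * ∑ i, |fourier g {i}| ≤ 34 := by
  induction n using Nat.strong_induction_on with
  | _ n ih =>
    intro ι _ _ hn g hodd hd
    by_contra hcon
    push Not at hcon
    have hgood : Five.Good (Gof g) (tOf g) := by
      refine ⟨Gof_pm g, Gof_lvl g hodd hd, ?_, ?_⟩
      · intro i j hij
        refine (Gof_merge g hodd hd i j hij ?_).1
        intro σ
        have hlt : Fintype.card {k : ι // k ≠ j} < n := by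
          rw [← hn]
          exact Fintype.card_subtype_lt (fun h => h rfl)
        exact ih _ hlt _ rfl (ident g i j hij σ) (ident_odd g hodd i j hij σ)
          ((degree_ident_le g i j hij σ).trans hd)
      · intro i j hij
        refine (Gof_merge g hodd hd i j hij ?_).2
        intro σ
        have hlt : Fintype.card {k : ι // k ≠ j} < n := by
          rw [← hn]
          exact Fintype.card_subtype_lt (fun h => h rfl)
        exact ih _ hlt _ rfl (ident g i j hij σ) (ident_odd g hodd i j hij σ)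
          ((degree_ident_le g i j hij σ).trans hd)
    have hK : 35 ≤ ∑ l, tOf g l := by
      have h1 : ((34 : ℤ) : ℝ) < ((∑ l, tOf g l : ℤ) : ℝ) := by
        rw [sum_tOf g hd]
        push_cast
        linarith
      have h2 : (34 : ℤ) < ∑ l, tOf g l := by exact_mod_cast h1
      omega
    exact hgood.false hK

/-- Every Boolean function of degree at most five has level-one sum at most `17/8`. -/
theorem level_one_le_seventeen_eighths (f : (ι → ℤˣ) → ℤˣ) (hd : degree f ≤ 5) :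
    ∑ i, |fourier f {i}| ≤ 17 / 8 := by
  apply level_one_le_of_odd (17 / 8) f hd
  intro g hodd hg
  have h := odd_level_one_le_aux (Fintype.card (Option ι)) (Option ι) rfl g hodd hg
  linarith

end Vale.Agent.Lib.P047
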