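import Vale.Agent.Lib.P047.D5.Base

/-!
# P047, degree five: the pair formula

For an odd Boolean function `g` of degree at most five on `n` bits and `i ≠ j`,
`16 ∑_{k ∉ {i,j}} ĝ({i,j,k}) x_i x_j x_k = ∑_k D(x^k) - (n - 10) D(x)`,
where `D(y) = g(y) - g(y^i) - g(y^j) + g(y^{ij})`.
-/

namespace Vale.Agent.Lib.P047

open Finset

set_option linter.unusedSectionVars false

variable {ι : Type*} [Fintype ι] [DecidableEq ι]

/-- The second difference of `g` in the directions `i`, `j`. -/
noncomputable def dpair (g : (ι → ℤˣ) → ℤˣ) (i j : ι) (y : ι → ℤˣ) : ℝ :=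
  ((g y : ℤ) : ℝ) - ((g (flip i y) : ℤ) : ℝ) - ((g (flip j y) : ℤ) : ℝ) +
    ((g (flip j (flip i y)) : ℤ) : ℝ)

/-- Fourier expansion of the second difference. -/
theorem pr_dpair_expansion (g : (ι → ℤˣ) → ℤˣ) (i j : ι) (y : ι → ℤˣ) :
    dpair g i j y = ∑ S : Finset ι,
      ((1 - (if i ∈ S then (-1 : ℝ) else 1)) * (1 - (if j ∈ S then (-1 : ℝ) else 1))) *
        (fourier g S * ∏ l ∈ S, ((y l : ℤ) : ℝ)) := by
  unfold dpair
  rw [fourier_inversion g y, fourier_inversion g (flip i y), fourier_inversion g (flip j y),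
    fourier_inversion g (flip j (flip i y)), ← Finset.sum_sub_distrib, ← Finset.sum_sub_distrib,
    ← Finset.sum_add_distrib]
  refine Finset.sum_congr rfl fun S _ => ?_
  rw [chi_flip j (flip i y) S, chi_flip i y S, chi_flip j y S]
  ring

/-- Fourier expansion of the neighbour sum of the second difference. -/
theorem pr_sum_dpair (g : (ι → ℤˣ) → ℤˣ) (i j : ι) (x : ι → ℤˣ) :
    ∑ k, dpair g i j (flip k x) = ∑ S : Finset ι, ((Fintype.card ι : ℝ) - 2 * S.card) *
      (((1 - (if i ∈ S then (-1 : ℝ) else 1)) * (1 - (if j ∈ S then (-1 : ℝ) else 1))) *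
        (fourier g S * ∏ l ∈ S, ((x l : ℤ) : ℝ))) := by
  have h1 : ∀ k : ι, dpair g i j (flip k x) = ∑ S : Finset ι,
      (if k ∈ S then (-1 : ℝ) else 1) *
        (((1 - (if i ∈ S then (-1 : ℝ) else 1)) * (1 - (if j ∈ S then (-1 : ℝ) else 1))) *
          (fourier g S * ∏ l ∈ S, ((x l : ℤ) : ℝ))) := by
    intro k
    rw [pr_dpair_expansion]
    refine Finset.sum_congr rfl fun S _ => ?_
    rw [chi_flip]
    ring
  simp_rw [h1]
  rw [Finset.sum_comm]
  refine Finset.sum_congr rfl fun S _ => ?_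
  rw [← Finset.sum_mul, sum_flip_sign]

/-- The summand of the right-hand side of the pair formula. -/
noncomputable def pr_term (g : (ι → ℤˣ) → ℤˣ) (i j : ι) (x : ι → ℤˣ) (S : Finset ι) : ℝ :=
  ((Fintype.card ι : ℝ) - 2 * S.card) *
      (((1 - (if i ∈ S then (-1 : ℝ) else 1)) * (1 - (if j ∈ S then (-1 : ℝ) else 1))) *
        (fourier g S * ∏ l ∈ S, ((x l : ℤ) : ℝ))) -
    ((Fintype.card ι : ℝ) - 10) *
      (((1 - (if i ∈ S then (-1 : ℝ) else 1)) * (1 - (if j ∈ S then (-1 : ℝ) else 1))) *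
        (fourier g S * ∏ l ∈ S, ((x l : ℤ) : ℝ)))

theorem pr_rhs (g : (ι → ℤˣ) → ℤˣ) (i j : ι) (x : ι → ℤˣ) :
    ∑ k, dpair g i j (flip k x) - ((Fintype.card ι : ℝ) - 10) * dpair g i j x =
      ∑ S : Finset ι, pr_term g i j x S := by
  rw [pr_sum_dpair, pr_dpair_expansion, Finset.mul_sum, ← Finset.sum_sub_distrib]
  rfl

theorem pr_term_triple (g : (ι → ℤˣ) → ℤˣ) (i j : ι) (hij : i ≠ j) (x : ι → ℤˣ) (k : ι)
    (hk : k ∈ (univ.erase i).erase j) :
    pr_term g i j x {i, j, k} =
      16 * (fourier g {i, j, k} * (((x i : ℤ) : ℝ) * ((x j : ℤ) : ℝ) * ((x k : ℤ) : ℝ))) := by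
  have hkj : k ≠ j := (Finset.mem_erase.mp hk).1
  have hki : k ≠ i := (Finset.mem_erase.mp (Finset.mem_erase.mp hk).2).1
  have hi : i ∉ ({j, k} : Finset ι) := by
    simp only [Finset.mem_insert, Finset.mem_singleton, not_or]
    exact ⟨hij, fun h => hki h.symm⟩
  have hj : j ∉ ({k} : Finset ι) := by
    simp only [Finset.mem_singleton]
    exact fun h => hkj h.symm
  have hcard : ({i, j, k} : Finset ι).card = 3 := by
    rw [Finset.card_insert_of_notMem hi, Finset.card_insert_of_notMem hj, Finset.card_singleton]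
  have hprod : ∏ l ∈ ({i, j, k} : Finset ι), ((x l : ℤ) : ℝ) =
      ((x i : ℤ) : ℝ) * ((x j : ℤ) : ℝ) * ((x k : ℤ) : ℝ) := by
    rw [Finset.prod_insert hi, Finset.prod_insert hj, Finset.prod_singleton]
    ring
  have h1 : i ∈ ({i, j, k} : Finset ι) := by simp
  have h2 : j ∈ ({i, j, k} : Finset ι) := by simp
  unfold pr_term
  rw [hcard, hprod, if_pos h1, if_pos h2]
  push_cast
  ring

theorem pr_term_zero (g : (ι → ℤˣ) → ℤˣ) (hodd : OddFn g) (hd : degree g ≤ 5)
    (i j : ι) (hij : i ≠ j) (x : ι → ℤˣ) (S : Finset ι)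
    (hS : S ∉ ((univ.erase i).erase j).image (fun k : ι => ({i, j, k} : Finset ι))) :
    pr_term g i j x S = 0 := by
  by_cases h0 : fourier g S = 0
  · unfold pr_term
    rw [h0]
    ring
  by_cases hi : i ∈ S
  swap
  · unfold pr_term
    rw [if_neg hi]
    ring
  by_cases hj : j ∈ S
  swap
  · unfold pr_term
    rw [if_neg hj]
    ring
  have hc : S.card ≤ 5 := (card_le_degree g S h0).trans hd
  have hodd' : Odd S.card := by
    by_contra hne
    exact h0 (fourier_even_eq_zero g hodd S (Nat.not_odd_iff_even.mp hne))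
  have hj' : j ∈ S.erase i := Finset.mem_erase.mpr ⟨fun h => hij h.symm, hj⟩
  have hc1 : (S.erase i).card = S.card - 1 := Finset.card_erase_of_mem hi
  have hc2 : ((S.erase i).erase j).card = (S.erase i).card - 1 := Finset.card_erase_of_mem hj'
  have hpos1 : 0 < S.card := Finset.card_pos.mpr ⟨i, hi⟩
  have hpos2 : 0 < (S.erase i).card := Finset.card_pos.mpr ⟨j, hj'⟩
  have h35 : S.card = 3 ∨ S.card = 5 := by
    rcases hodd' with ⟨a, ha⟩
    omega
  rcases h35 with h3 | h5
  · exfalso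
    apply hS
    have hcard : ((S.erase i).erase j).card = 1 := by omega
    obtain ⟨k, hk⟩ := Finset.card_eq_one.mp hcard
    have hkmem : k ∈ (S.erase i).erase j := by
      rw [hk]
      exact Finset.mem_singleton_self k
    have hkj : k ≠ j := (Finset.mem_erase.mp hkmem).1
    have hki : k ≠ i := (Finset.mem_erase.mp (Finset.mem_erase.mp hkmem).2).1
    refine Finset.mem_image.mpr ⟨k, ?_, ?_⟩
    · exact Finset.mem_erase.mpr ⟨hkj, Finset.mem_erase.mpr ⟨hki, Finset.mem_univ k⟩⟩
    · show (insert i (insert j ({k} : Finset ι)) : Finset ι) = S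
      rw [← hk, Finset.insert_erase hj', Finset.insert_erase hi]
  · unfold pr_term
    rw [h5]
    push_cast
    ring

/-- The pair formula at degree five, for odd functions. -/
theorem pair_formula5 (g : (ι → ℤˣ) → ℤˣ) (hodd : OddFn g) (hd : degree g ≤ 5)
    (i j : ι) (hij : i ≠ j) (x : ι → ℤˣ) :
    16 * ∑ k ∈ (univ.erase i).erase j,
        fourier g {i, j, k} * (((x i : ℤ) : ℝ) * ((x j : ℤ) : ℝ) * ((x k : ℤ) : ℝ)) =
      ∑ k, dpair g i j (flip k x) - ((Fintype.card ι : ℝ) - 10) * dpair g i j x := by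
  have hinj : Set.InjOn (fun k : ι => ({i, j, k} : Finset ι))
      (((univ.erase i).erase j : Finset ι) : Set ι) := by
    intro a ha b _ hab
    have ha' : a ∈ (univ.erase i).erase j := Finset.mem_coe.mp ha
    have haj : a ≠ j := (Finset.mem_erase.mp ha').1
    have hai : a ≠ i := (Finset.mem_erase.mp (Finset.mem_erase.mp ha').2).1
    have hmem : a ∈ ({i, j, b} : Finset ι) := by
      have h : a ∈ ({i, j, a} : Finset ι) := by simp
      have hab' : ({i, j, a} : Finset ι) = {i, j, b} := hab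
      rw [hab'] at h
      exact h
    simp only [Finset.mem_insert, Finset.mem_singleton] at hmem
    rcases hmem with h | h | h
    · exact absurd h hai
    · exact absurd h haj
    · exact h
  rw [pr_rhs, ← Finset.sum_subset (Finset.subset_univ
      (((univ.erase i).erase j).image (fun k : ι => ({i, j, k} : Finset ι))))
      (fun S _ hS => pr_term_zero g hodd hd i j hij x S hS),
    Finset.sum_image hinj, Finset.mul_sum]
  refine Finset.sum_congr rfl fun k hk => ?_
  exact (pr_term_triple g i j hij x k hk).symm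

end Vale.Agent.Lib.P047
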